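import Vale.Agent.P235.Bdl.B1

/-! P235, planar `O(log log n)`: the quotient of an `L₁` semimetric by the set `ρ = 0`: random cuts
times cut-offs in `ρ`. -/

namespace Vale.Agent.P235.LL.H296

open Finset Vale.Agent.P235

/-- the separation probability of a random cut -/
def RC {V : Type} (S : V → V → ℝ) : Prop :=
  ∃ (ι : Type) (_ : Fintype ι) (p : ι → ℝ) (c : ι → V → Bool), (∀ i, 0 ≤ p i) ∧ ∑ i, p i = 1 ∧
    ∀ x y, S x y = ∑ i, p i * (if c i x = c i y then 0 else 1)

variable {V : Type}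

theorem RC.congr {S T : V → V → ℝ} (h : RC S) (hT : ∀ x y, T x y = S x y) : RC T := by
  have : T = S := by funext x y; exact hT x y
  rw [this]; exact h

theorem rc_zero : RC (fun _ _ : V => (0 : ℝ)) :=
  ⟨Unit, inferInstance, fun _ => 1, fun _ _ => true, fun _ => zero_le_one, by simp, by simp⟩

theorem rc_one (c : V → Bool) {q : ℝ} (h0 : 0 ≤ q) (h1 : q ≤ 1) :
    RC fun x y => q * (if c x = c y then 0 else 1) := by
  refine ⟨Bool, inferInstance, fun b => if b then q else 1 - q, fun b x => b && c x, ?_, ?_, ?_⟩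
  · rintro (_ | _) <;> simp [h0, h1]
  · simp
  · intro x y
    simp

theorem RC.comb {S T : V → V → ℝ} (hS : RC S) (hT : RC T) :
    RC fun x y => S x y + T x y - 2 * S x y * T x y := by
  obtain ⟨ι, _, p, c, hp, hp1, hS⟩ := hS
  obtain ⟨κ, _, q, e, hq, hq1, hT⟩ := hT
  refine ⟨ι × κ, inferInstance, fun i => p i.1 * q i.2, fun i x => Bool.xor (c i.1 x) (e i.2 x),
    fun i => mul_nonneg (hp _) (hq _), ?_, ?_⟩
  · rw [Fintype.sum_prod_type]
    simp only [← Finset.mul_sum, hq1, mul_one, hp1]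
  · intro x y
    show S x y + T x y - 2 * S x y * T x y = _
    rw [Fintype.sum_prod_type]
    have key : ∀ i j, p i * q j * (if Bool.xor (c i x) (e j x) = Bool.xor (c i y) (e j y) then (0 : ℝ) else 1) =
        p i * (if c i x = c i y then 0 else 1) * q j + p i * (q j * (if e j x = e j y then 0 else 1))
          - 2 * (p i * (if c i x = c i y then 0 else 1)) *
            (q j * (if e j x = e j y then 0 else 1)) := by
      intro i j
      cases c i x <;> cases c i y <;> cases e j x <;> cases e j y <;> simp <;> ring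
    simp only [key, Finset.sum_sub_distrib, Finset.sum_add_distrib, ← Finset.mul_sum, hq1,
      mul_one, ← Finset.sum_mul, hp1, one_mul, ← hS, ← hT]

theorem rc_exp {F : V → V → ℝ} (hF : IsL1 F) : RC fun x y => (1 - Real.exp (-2 * F x y)) / 2 := by
  classical
  obtain ⟨ι, _, w, c, hw, hF⟩ := hF
  have key : ∀ s : Finset ι, RC fun x y =>
      (1 - Real.exp (-2 * ∑ i ∈ s, w i * (if c i x = c i y then 0 else 1))) / 2 := by
    intro s
    induction s using Finset.induction_on with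
    | empty => exact rc_zero.congr fun x y => by simp
    | insert a s ha ih =>
      have hq : Real.exp (-2 * w a) ≤ 1 := Real.exp_le_one_iff.2 (by linarith [hw a])
      have hq0 := Real.exp_pos (-2 * w a)
      have h1 := rc_one (c a) (q := (1 - Real.exp (-2 * w a)) / 2) (by linarith) (by linarith)
      refine (h1.comb ih).congr fun x y => ?_
      rw [Finset.sum_insert ha, mul_add, Real.exp_add]
      by_cases h : c a x = c a y
      · simp [h]
      · simp only [h, if_false, mul_one]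
        ring
  refine (key Finset.univ).congr fun x y => ?_
  rw [hF]

/-- the tent -/
noncomputable def tent (u : ℝ) : ℝ := max 0 (min (2 * u - 1) (2 - u))

theorem tent_nonneg (u : ℝ) : 0 ≤ tent u := le_max_left _ _

theorem tent_le_one (u : ℝ) : tent u ≤ 1 := by
  refine max_le zero_le_one ?_
  rcases le_total u 1 with h | h
  · exact (min_le_left _ _).trans (by linarith)
  · exact (min_le_right _ _).trans (by linarith)

theorem tent_lip (u v : ℝ) : |tent u - tent v| ≤ 2 * |u - v| := by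
  unfold tent
  rw [abs_le]
  have h := abs_le.1 (le_refl |u - v|)
  constructor
  · rcases max_cases 0 (min (2 * v - 1) (2 - v)) with ⟨h1, h1'⟩ | ⟨h1, h1'⟩ <;>
    rcases max_cases 0 (min (2 * u - 1) (2 - u)) with ⟨h2, h2'⟩ | ⟨h2, h2'⟩ <;>
    rcases min_cases (2 * v - 1) (2 - v) with ⟨h3, h3'⟩ | ⟨h3, h3'⟩ <;>
    rcases min_cases (2 * u - 1) (2 - u) with ⟨h4, h4'⟩ | ⟨h4, h4'⟩ <;>
    rw [h1, h2] <;> linarith [h.1, h.2, abs_nonneg (u - v)]
  · rcases max_cases 0 (min (2 * v - 1) (2 - v)) with ⟨h1, h1'⟩ | ⟨h1, h1'⟩ <;>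
    rcases max_cases 0 (min (2 * u - 1) (2 - u)) with ⟨h2, h2'⟩ | ⟨h2, h2'⟩ <;>
    rcases min_cases (2 * v - 1) (2 - v) with ⟨h3, h3'⟩ | ⟨h3, h3'⟩ <;>
    rcases min_cases (2 * u - 1) (2 - u) with ⟨h4, h4'⟩ | ⟨h4, h4'⟩ <;>
    rw [h1, h2] <;> linarith [h.1, h.2, abs_nonneg (u - v)]

theorem tent_zero {u : ℝ} (h : u ≤ 1 / 2 ∨ 2 ≤ u) : tent u = 0 := by
  refine max_eq_left ?_
  rcases h with h | h
  · exact (min_le_left _ _).trans (by linarith)
  · exact (min_le_right _ _).trans (by linarith)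

theorem tent_half {u : ℝ} (h1 : 3 / 4 ≤ u) (h2 : u ≤ 3 / 2) : 1 / 2 ≤ tent u :=
  le_max_of_le_right (le_min (by linarith) (by linarith))

/-- one scale -/
theorem scale [Finite V] {F : V → V → ℝ} (hF : IsL1 F) (ρ : V → ℝ) {t : ℝ} (ht : 0 < t) :
    ∃ Q : V → V → ℝ, IsL1 Q ∧
      (∀ x y, Q x y ≤ t * |tent (ρ x / t) - tent (ρ y / t)| +
        min (tent (ρ x / t)) (tent (ρ y / t)) * F x y) ∧
      (∀ x y, Q x y ≤ t * (tent (ρ x / t) + tent (ρ y / t))) ∧
      ∀ x y, min (tent (ρ x / t)) (tent (ρ y / t)) * (min (F x y) t / 3) ≤ Q x y := by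
  obtain ⟨ι, _, p, c, hp, hp1, hS⟩ := rc_exp (hF.smul (a := 1 / t) (by positivity))
  set T : V → ℝ := fun x => tent (ρ x / t) with hT
  have hT0 : ∀ x, 0 ≤ T x := fun x => tent_nonneg _
  set g : ι → V → ℝ := fun i x => if c i x then T x else 0 with hg
  have hS1 : ∀ x y, t * ∑ i, p i * (if c i x = c i y then (0 : ℝ) else 1) ≤ F x y := by
    intro x y
    rw [← hS]
    have h1 := Real.add_one_le_exp (-2 * (1 / t * F x y))
    have h2 : t * (1 / t * F x y) = F x y := by field_simp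
    have h3 : t * ((1 - Real.exp (-2 * (1 / t * F x y))) / 2) ≤ t * (1 / t * F x y) :=
      mul_le_mul_of_nonneg_left (by linarith) ht.le
    linarith
  have hS2 : ∀ x y, min (F x y) t / 3 ≤ t * ∑ i, p i * (if c i x = c i y then (0 : ℝ) else 1) := by
    intro x y
    rw [← hS]
    have hu : 0 ≤ 1 / t * F x y := mul_nonneg (by positivity) (hF.nonneg x y)
    set u := 1 / t * F x y with hu'
    have hFu : F x y = t * u := by rw [hu']; field_simp
    have h1 := Real.add_one_le_exp (2 * u)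
    have h2 : Real.exp (-2 * u) * Real.exp (2 * u) = 1 := by
      rw [← Real.exp_add]; simp
    have h3 := Real.exp_pos (-2 * u)
    have h4 : Real.exp (-2 * u) * (2 * u + 1) ≤ 1 :=
      (mul_le_mul_of_nonneg_left h1 h3.le).trans_eq h2
    have h5 : Real.exp (-2 * u) ≤ 1 := Real.exp_le_one_iff.2 (by linarith)
    have h6 : min u 1 / 3 ≤ (1 - Real.exp (-2 * u)) / 2 := by
      rcases le_total u 1 with h | h
      · rw [min_eq_left h]; nlinarith
      · rw [min_eq_right h]; nlinarith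
    calc min (F x y) t / 3 = t * (min u 1 / 3) := by
          rw [hFu, ← mul_div_assoc, mul_min_of_nonneg _ _ ht.le, mul_one]
      _ ≤ _ := mul_le_mul_of_nonneg_left h6 ht.le
  refine ⟨fun x y => ∑ i, t * (p i * |g i x - g i y|), ?_, ?_, ?_, ?_⟩
  · exact IsL1.sum Finset.univ (fun i x y => t * (p i * |g i x - g i y|)) fun i _ =>
      ((isL1_line (g i)).smul (hp i)).smul ht.le
  · intro x y
    have h1 : ∀ i, t * (p i * |g i x - g i y|) ≤ t * |T x - T y| * p i +
        min (T x) (T y) * (t * (p i * (if c i x = c i y then (0 : ℝ) else 1))) := by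
      intro i
      have h2 : |g i x - g i y| ≤ |T x - T y| +
          min (T x) (T y) * (if c i x = c i y then (0 : ℝ) else 1) := by
        simp only [hg]
        cases c i x <;> cases c i y <;> simp
        · rw [abs_of_nonneg (hT0 y)]
          rcases min_cases (T x) (T y) with ⟨h, h'⟩ | ⟨h, h'⟩ <;> rw [h] <;>
            linarith [neg_abs_le (T x - T y), le_abs_self (T x - T y)]
        · rw [abs_of_nonneg (hT0 x)]
          rcases min_cases (T x) (T y) with ⟨h, h'⟩ | ⟨h, h'⟩ <;> rw [h] <;>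
            linarith [neg_abs_le (T x - T y), le_abs_self (T x - T y)]
      calc t * (p i * |g i x - g i y|) ≤ t * (p i * (|T x - T y| +
          min (T x) (T y) * (if c i x = c i y then (0 : ℝ) else 1))) :=
            mul_le_mul_of_nonneg_left (mul_le_mul_of_nonneg_left h2 (hp i)) ht.le
        _ = _ := by ring
    refine (Finset.sum_le_sum fun i _ => h1 i).trans ?_
    rw [Finset.sum_add_distrib, ← Finset.mul_sum, hp1, mul_one, ← Finset.mul_sum, ← Finset.mul_sum]
    have h3 := mul_le_mul_of_nonneg_left (hS1 x y) (le_min (hT0 x) (hT0 y))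
    exact add_le_add_right h3 _
  · intro x y
    have h1 : ∀ i, t * (p i * |g i x - g i y|) ≤ t * (T x + T y) * p i := by
      intro i
      have h2 : |g i x - g i y| ≤ T x + T y := by
        simp only [hg]
        have hx := hT0 x
        have hy := hT0 y
        cases c i x <;> cases c i y <;> simp
        · linarith
        · rw [abs_of_nonneg hy]; linarith
        · rw [abs_of_nonneg hx]; linarith
        · rw [abs_le]; constructor <;> linarith
      calc t * (p i * |g i x - g i y|) ≤ t * (p i * (T x + T y)) :=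
            mul_le_mul_of_nonneg_left (mul_le_mul_of_nonneg_left h2 (hp i)) ht.le
        _ = _ := by ring
    refine (Finset.sum_le_sum fun i _ => h1 i).trans ?_
    rw [← Finset.mul_sum, hp1, mul_one]
  · intro x y
    have h1 : ∀ i, min (T x) (T y) * (t * (p i * (if c i x = c i y then (0 : ℝ) else 1))) ≤
        t * (p i * |g i x - g i y|) := by
      intro i
      have h2 : min (T x) (T y) * (if c i x = c i y then (0 : ℝ) else 1) ≤ |g i x - g i y| := by
        simp only [hg]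
        have hx := hT0 x
        have hy := hT0 y
        cases c i x <;> cases c i y <;> simp
        · rw [abs_of_nonneg hy]; exact Or.inr le_rfl
        · rw [abs_of_nonneg hx]; exact Or.inl le_rfl
      calc _ = t * (p i * (min (T x) (T y) * (if c i x = c i y then (0 : ℝ) else 1))) := by ring
        _ ≤ _ := mul_le_mul_of_nonneg_left (mul_le_mul_of_nonneg_left h2 (hp i)) ht.le
    refine le_trans ?_ (Finset.sum_le_sum fun i _ => h1 i)
    rw [← Finset.mul_sum, ← Finset.mul_sum]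
    exact mul_le_mul_of_nonneg_left (hS2 x y) (le_min (hT0 x) (hT0 y))

theorem sum_few {s A : Finset ℤ} {f : ℤ → ℝ} {B : ℝ} (hB : 0 ≤ B) (h0 : ∀ k, k ∉ A → f k ≤ 0)
    (h1 : ∀ k, f k ≤ B) : ∑ k ∈ s, f k ≤ A.card * B := by
  classical
  calc ∑ k ∈ s, f k ≤ ∑ k ∈ s, (if k ∈ A then B else 0) := by
        refine Finset.sum_le_sum fun k _ => ?_
        split_ifs with h
        · exact h1 k
        · exact h0 k h
    _ = ((s.filter (· ∈ A)).card : ℝ) * B := by
        rw [← Finset.sum_filter, Finset.sum_const, nsmul_eq_mul]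
    _ ≤ A.card * B := by
        refine mul_le_mul_of_nonneg_right ?_ hB
        exact_mod_cast Finset.card_le_card fun k hk => (Finset.mem_filter.1 hk).2

/-- the scales where the tent is not zero -/
noncomputable def sc (r : ℝ) : Finset ℤ := {Int.log 2 r, Int.log 2 r + 1}

theorem card_sc (r : ℝ) : ((sc r).card : ℝ) ≤ 2 := by
  exact_mod_cast Finset.card_le_two

theorem tent_sc {r : ℝ} (hr : 0 ≤ r) {k : ℤ} (hk : k ∉ sc r) : tent (r / 2 ^ k) = 0 := by
  have h2 : (0 : ℝ) < 2 ^ k := by positivity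
  rcases hr.eq_or_lt with rfl | hr
  · exact tent_zero (Or.inl (by simp))
  simp only [sc, Finset.mem_insert, Finset.mem_singleton, not_or] at hk
  have h3 : ((2 : ℕ) : ℝ) ^ Int.log 2 r ≤ r := Int.zpow_log_le_self (by norm_num) hr
  have h4 : r < ((2 : ℕ) : ℝ) ^ (Int.log 2 r + 1) := Int.lt_zpow_succ_log_self (by norm_num) r
  push_cast at h3 h4
  refine tent_zero ?_
  rcases lt_or_gt_of_ne hk.1 with h | h
  · right
    rw [le_div_iff₀ h2]
    have h5 : (2 : ℝ) ^ (k + 1) ≤ 2 ^ Int.log 2 r := zpow_le_zpow_right₀ (by norm_num) (by omega)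
    rw [zpow_add_one₀ (by norm_num)] at h5
    linarith
  · left
    rw [div_le_iff₀ h2]
    have h5 : (2 : ℝ) ^ (Int.log 2 r + 1 + 1) ≤ 2 ^ k :=
      zpow_le_zpow_right₀ (by norm_num) (by omega)
    rw [zpow_add_one₀ (by norm_num)] at h5
    linarith

/-- **The quotient lemma**: for an `L₁` semimetric `F` and `ρ ≥ 0` there is an `L₁` semimetric
comparable with `min (F + |ρ - ρ|) (ρ + ρ)`. -/
theorem half [Finite V] {F : V → V → ℝ} (hF : IsL1 F) (ρ : V → ℝ) (hρ : ∀ x, 0 ≤ ρ x) :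
    ∃ Q : V → V → ℝ, IsL1 Q ∧ (∀ x y, Q x y ≤ 9 * (F x y + |ρ x - ρ y|)) ∧
      (∀ x y, Q x y ≤ 9 * (ρ x + ρ y)) ∧
      ∀ x y, 1 / 64 * min (F x y + |ρ x - ρ y|) (ρ x + ρ y) ≤ Q x y := by
  classical
  have := Fintype.ofFinite V
  have hsc : ∀ k : ℤ, ∃ Q : V → V → ℝ, IsL1 Q ∧
      (∀ x y, Q x y ≤ 2 ^ k * |tent (ρ x / 2 ^ k) - tent (ρ y / 2 ^ k)| +
        min (tent (ρ x / 2 ^ k)) (tent (ρ y / 2 ^ k)) * F x y) ∧
      (∀ x y, Q x y ≤ 2 ^ k * (tent (ρ x / 2 ^ k) + tent (ρ y / 2 ^ k))) ∧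
      ∀ x y, min (tent (ρ x / 2 ^ k)) (tent (ρ y / 2 ^ k)) * (min (F x y) (2 ^ k) / 3) ≤ Q x y :=
    fun k => scale hF ρ (by positivity)
  choose Q hQ hQ1 hQ2 hQ3 using hsc
  set s : Finset ℤ := Finset.univ.image fun x => Int.log 2 (4 / 3 * ρ x) with hs
  have hk2 : ∀ k : ℤ, (0 : ℝ) < 2 ^ k := fun k => by positivity
  refine ⟨fun x y => |ρ x - ρ y| + ∑ k ∈ s, Q k x y,
    (isL1_line ρ).add (IsL1.sum s Q fun k _ => hQ k), ?_, ?_, ?_⟩
  · intro x y
    have hF0 := hF.nonneg x y
    have h1 : ∑ k ∈ s, 2 ^ k * |tent (ρ x / 2 ^ k) - tent (ρ y / 2 ^ k)| ≤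
        ((sc (ρ x) ∪ sc (ρ y)).card : ℝ) * (2 * |ρ x - ρ y|) := by
      refine sum_few (by positivity) (fun k hk => ?_) fun k => ?_
      · rw [Finset.mem_union, not_or] at hk
        rw [tent_sc (hρ x) hk.1, tent_sc (hρ y) hk.2]
        simp
      · have h2 := tent_lip (ρ x / 2 ^ k) (ρ y / 2 ^ k)
        rw [← sub_div, abs_div, abs_of_pos (hk2 k)] at h2
        calc 2 ^ k * |tent (ρ x / 2 ^ k) - tent (ρ y / 2 ^ k)|
            ≤ 2 ^ k * (2 * (|ρ x - ρ y| / 2 ^ k)) := mul_le_mul_of_nonneg_left h2 (hk2 k).le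
          _ = 2 * |ρ x - ρ y| := by field_simp
    have h2 : ∑ k ∈ s, min (tent (ρ x / 2 ^ k)) (tent (ρ y / 2 ^ k)) * F x y ≤
        ((sc (ρ x)).card : ℝ) * F x y := by
      refine sum_few hF0 (fun k hk => ?_) fun k => ?_
      · rw [tent_sc (hρ x) hk]
        exact mul_nonpos_of_nonpos_of_nonneg (min_le_left _ _) hF0
      · calc _ ≤ 1 * F x y :=
            mul_le_mul_of_nonneg_right ((min_le_left _ _).trans (tent_le_one _)) hF0
          _ = F x y := one_mul _
    have h3 : ((sc (ρ x) ∪ sc (ρ y)).card : ℝ) ≤ 4 := by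
      have h4 := Finset.card_union_le (sc (ρ x)) (sc (ρ y))
      have h5 := card_sc (ρ x)
      have h6 := card_sc (ρ y)
      have h7 : ((sc (ρ x) ∪ sc (ρ y)).card : ℝ) ≤ (sc (ρ x)).card + (sc (ρ y)).card := by
        exact_mod_cast h4
      linarith
    have h4 := mul_le_mul_of_nonneg_right h3 (show 0 ≤ 2 * |ρ x - ρ y| by positivity)
    have h5 := mul_le_mul_of_nonneg_right (card_sc (ρ x)) hF0
    have h6 : ∑ k ∈ s, Q k x y ≤ _ := Finset.sum_le_sum fun k _ => hQ1 k x y
    rw [Finset.sum_add_distrib] at h6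
    linarith
  · intro x y
    have h1 : ∀ z, ∑ k ∈ s, 2 ^ k * tent (ρ z / 2 ^ k) ≤ ((sc (ρ z)).card : ℝ) * (2 * ρ z) := by
      intro z
      refine sum_few (by linarith [hρ z]) (fun k hk => ?_) fun k => ?_
      · rw [tent_sc (hρ z) hk]; simp
      · by_cases h : ρ z / 2 ^ k ≤ 1 / 2
        · rw [tent_zero (Or.inl h)]
          linarith [hρ z]
        · push Not at h
          rw [lt_div_iff₀ (hk2 k)] at h
          calc _ ≤ 2 ^ k * 1 := mul_le_mul_of_nonneg_left (tent_le_one _) (hk2 k).le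
            _ ≤ _ := by linarith
    have h2 : ∑ k ∈ s, Q k x y ≤ _ := Finset.sum_le_sum fun k _ => hQ2 k x y
    simp only [mul_add, Finset.sum_add_distrib] at h2
    have h3 := mul_le_mul_of_nonneg_right (card_sc (ρ x)) (show 0 ≤ 2 * ρ x by linarith [hρ x])
    have h4 := mul_le_mul_of_nonneg_right (card_sc (ρ y)) (show 0 ≤ 2 * ρ y by linarith [hρ y])
    have h5 : |ρ x - ρ y| ≤ ρ x + ρ y := by
      rw [abs_le]; constructor <;> linarith [hρ x, hρ y]
    have h6 := h1 x
    have h7 := h1 y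
    linarith [hρ x, hρ y]
  · have main : ∀ x y, ρ y ≤ ρ x →
        1 / 64 * min (F x y + |ρ x - ρ y|) (ρ x + ρ y) ≤ |ρ x - ρ y| + ∑ k ∈ s, Q k x y := by
      intro x y hxy
      have hF0 := hF.nonneg x y
      have hs0 : 0 ≤ ∑ k ∈ s, Q k x y := Finset.sum_nonneg fun k _ => (hQ k).nonneg x y
      set m := min (F x y + |ρ x - ρ y|) (ρ x + ρ y) with hm
      have hm1 : m ≤ F x y + |ρ x - ρ y| := min_le_left _ _
      have hm2 : m ≤ ρ x + ρ y := min_le_right _ _
      by_cases hd : 1 / 64 * m ≤ |ρ x - ρ y|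
      · linarith
      push Not at hd
      have hab := abs_nonneg (ρ x - ρ y)
      have hx0 : 0 < ρ x := by linarith [hρ y]
      have hlx : 0 < 4 / 3 * ρ x := by linarith
      set k := Int.log 2 (4 / 3 * ρ x) with hk
      have h3 : ((2 : ℕ) : ℝ) ^ k ≤ 4 / 3 * ρ x := Int.zpow_log_le_self (by norm_num) hlx
      have h4 : 4 / 3 * ρ x < ((2 : ℕ) : ℝ) ^ (k + 1) := Int.lt_zpow_succ_log_self (by norm_num) _
      push_cast at h3 h4
      rw [zpow_add_one₀ (by norm_num)] at h4
      have hks : k ∈ s := Finset.mem_image.2 ⟨x, Finset.mem_univ x, rfl⟩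
      have h5 : 1 / 2 ≤ tent (ρ x / 2 ^ k) := by
        refine tent_half ?_ ?_
        · rw [le_div_iff₀ (hk2 k)]; linarith
        · rw [div_le_iff₀ (hk2 k)]; linarith
      have h6 : 3 / 8 ≤ tent (ρ y / 2 ^ k) := by
        have h7 := tent_lip (ρ x / 2 ^ k) (ρ y / 2 ^ k)
        rw [← sub_div, abs_div, abs_of_pos (hk2 k)] at h7
        have h8 : |ρ x - ρ y| / 2 ^ k ≤ 3 / 64 := by
          rw [div_le_iff₀ (hk2 k)]; linarith
        have h9 := (abs_le.1 h7).2
        linarith
      have h7 : 3 / 8 ≤ min (tent (ρ x / 2 ^ k)) (tent (ρ y / 2 ^ k)) :=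
        le_min (by linarith) h6
      have h8 : m / 3 ≤ min (F x y) (2 ^ k) := le_min (by linarith) (by linarith)
      have h9 := hQ3 k x y
      have h10 : Q k x y ≤ ∑ k ∈ s, Q k x y :=
        Finset.single_le_sum (f := fun k => Q k x y) (fun k _ => (hQ k).nonneg x y) hks
      have hm0 : 0 < m := by linarith
      have h11 : 3 / 8 * (m / 3 / 3) ≤ min (tent (ρ x / 2 ^ k)) (tent (ρ y / 2 ^ k)) *
          (min (F x y) (2 ^ k) / 3) :=
        mul_le_mul h7 (by linarith) (by linarith) (by linarith)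
      linarith
    intro x y
    rcases le_total (ρ y) (ρ x) with h | h
    · exact main x y h
    · have h1 := main y x h
      rw [hF.symm y x, abs_sub_comm (ρ y) (ρ x), add_comm (ρ y) (ρ x)] at h1
      have h2 : ∑ k ∈ s, Q k y x = ∑ k ∈ s, Q k x y :=
        Finset.sum_congr rfl fun k _ => (hQ k).symm y x
      rw [h2] at h1
      exact h1

/-- (4)(b): a map which vanishes on the old set `ρ = 0`. The semimetric `F` is only needed where
`ρ > 0`. -/
theorem quot [Finite V] {d F : V → V → ℝ} {ρ : V → ℝ} {C K : ℝ} (hd : ∀ x y, 0 ≤ d x y)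
    (hρ : ∀ x, 0 ≤ ρ x) (hlip : ∀ x y, |ρ x - ρ y| ≤ d x y) (hF : IsL1 F) (hC : 0 ≤ C)
    (hK : 1 ≤ K)
    (hup : ∀ x y, 0 < ρ x → 0 < ρ y → d x y < ρ x + ρ y → F x y ≤ C * d x y)
    (hlo : ∀ x y, 0 < ρ x → 0 < ρ y → min (d x y) (ρ x + ρ y) ≤ K * F x y) :
    ∃ Q : V → V → ℝ, IsL1 Q ∧ (∀ x y, ρ x = 0 → ρ y = 0 → Q x y = 0) ∧
      (∀ x y, Q x y ≤ 9 * (C + 1) * d x y) ∧ (∀ x y, Q x y ≤ 9 * (ρ x + ρ y)) ∧
      ∀ x y, min (d x y) (ρ x + ρ y) ≤ 64 * K * Q x y := by
  obtain ⟨Q, hQ, h1, h2, h3⟩ := half hF ρ hρ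
  refine ⟨Q, hQ, fun x y hx hy => ?_, fun x y => ?_, h2, fun x y => ?_⟩
  · have h4 := h2 x y
    rw [hx, hy] at h4
    exact le_antisymm (by linarith) (hQ.nonneg x y)
  · by_cases h : d x y < ρ x + ρ y
    · have hl := abs_le.1 (hlip x y)
      rcases (hρ x).eq_or_lt with hx | hx
      · linarith [hρ y]
      rcases (hρ y).eq_or_lt with hy | hy
      · linarith [hρ x]
      have h4 := hup x y hx hy h
      have h5 := h1 x y
      have h6 := hlip x y
      linarith
    · push Not at h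
      have h4 := h2 x y
      have h5 := mul_nonneg hC (hd x y)
      linarith [hd x y]
  · have h4 := h3 x y
    have h5 : min (d x y) (ρ x + ρ y) ≤ K * min (F x y + |ρ x - ρ y|) (ρ x + ρ y) := by
      have hF0 := hF.nonneg x y
      have ha := abs_nonneg (ρ x - ρ y)
      rw [mul_min_of_nonneg _ _ (by linarith : (0 : ℝ) ≤ K)]
      have h7 : ρ x + ρ y ≤ K * (ρ x + ρ y) := le_mul_of_one_le_left (by linarith [hρ x, hρ y]) hK
      refine le_min ?_ ((min_le_right _ _).trans h7)
      rcases (hρ x).eq_or_lt with hx | hx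
      · refine (min_le_right _ _).trans (h7.trans ?_)
        refine mul_le_mul_of_nonneg_left ?_ (by linarith)
        rw [← hx, zero_sub, abs_neg, abs_of_nonneg (hρ y)]
        linarith
      rcases (hρ y).eq_or_lt with hy | hy
      · refine (min_le_right _ _).trans (h7.trans ?_)
        refine mul_le_mul_of_nonneg_left ?_ (by linarith)
        rw [← hy, sub_zero, abs_of_nonneg (hρ x)]
        linarith
      · refine (hlo x y hx hy).trans (mul_le_mul_of_nonneg_left (by linarith) (by linarith))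
    have h6 : K * min (F x y + |ρ x - ρ y|) (ρ x + ρ y) ≤ K * (64 * Q x y) :=
      mul_le_mul_of_nonneg_left (by linarith) (by linarith)
    linarith

end Vale.Agent.P235.LL.H296
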