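import Vale.Agent.P235.H958.LipExt
import Vale.Agent.P235.H296.Half
import Mathlib.Analysis.Normed.Lp.PiLp

/-! P235, planar `O(log log n)`: an `L₁` semimetric on the visible vertices extended to the
invisible components as a function of coordinates, and the quotient maps of the components. -/

namespace Vale.Agent.P235.LL.H296

open Finset Vale.Agent.P235

/-- the `ℓ¹` distance -/
def sd {I : Type} [Fintype I] (z z' : I → ℝ) : ℝ := ∑ i, |z i - z' i|

theorem sd_nonneg {I : Type} [Fintype I] (z z' : I → ℝ) : 0 ≤ sd z z' :=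
  Finset.sum_nonneg fun _ _ => abs_nonneg _

theorem sd_self {I : Type} [Fintype I] (z : I → ℝ) : sd z z = 0 := by simp [sd]

theorem sd_comm {I : Type} [Fintype I] (z z' : I → ℝ) : sd z z' = sd z' z :=
  Finset.sum_congr rfl fun _ _ => abs_sub_comm _ _

theorem sd_tri {I : Type} [Fintype I] (z z' z'' : I → ℝ) : sd z z'' ≤ sd z z' + sd z' z'' := by
  unfold sd
  rw [← Finset.sum_add_distrib]
  exact Finset.sum_le_sum fun i _ => abs_sub_le _ _ _

theorem dist_le_sd {m : ℕ} (z z' : Fin m → ℝ) : dist z z' ≤ sd z z' := by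
  refine (dist_pi_le_iff (sd_nonneg z z')).2 fun i => ?_
  rw [Real.dist_eq]
  exact Finset.single_le_sum (f := fun i => |z i - z' i|) (fun i _ => abs_nonneg _)
    (Finset.mem_univ i)

theorem sd_le_dist {m : ℕ} (z z' : Fin m → ℝ) : sd z z' ≤ m * dist z z' := by
  calc sd z z' ≤ ∑ _i : Fin m, dist z z' := Finset.sum_le_sum fun i _ => by
        rw [← Real.dist_eq]; exact dist_le_pi_dist z z' i
    _ = m * dist z z' := by simp

theorem isL1_sd {V : Type} [Finite V] {I : Type} [Fintype I] (Z : V → I → ℝ) :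
    IsL1 fun x y => sd (Z x) (Z y) :=
  IsL1.sum Finset.univ (fun i x y => |Z x i - Z y i|) fun i _ => isL1_line fun x => Z x i

theorem exists_map {V : Type} {F : V → V → ℝ} (hF : IsL1 F) :
    ∃ (ι : Type) (_ : Fintype ι) (f : V → PiLp 1 fun _ : ι => ℝ), ∀ x y, ‖f x - f y‖ = F x y := by
  obtain ⟨ι, hι, w, c, hw, hF⟩ := hF
  refine ⟨ι, hι, fun x => WithLp.toLp 1 fun i => if c i x then w i else 0, fun x y => ?_⟩
  rw [PiLp.norm_eq_of_L1, hF]
  refine Finset.sum_congr rfl fun i _ => ?_
  rw [PiLp.sub_apply]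
  show ‖(if c i x then w i else 0) - (if c i y then w i else 0)‖ = _
  cases c i x <;> cases c i y <;> simp [abs_of_nonneg (hw i)]

theorem isL1_norm {V : Type} [Finite V] {ι : Type} [Fintype ι] (f : V → PiLp 1 fun _ : ι => ℝ) :
    IsL1 fun x y => ‖f x - f y‖ := by
  refine (IsL1.sum Finset.univ (fun i x y => |f x i - f y i|) fun i _ =>
    isL1_line fun x => f x i).congr fun x y => ?_
  rw [PiLp.norm_eq_of_L1]
  rfl

/-- **Extension**: `Q` is an `L₁` semimetric on the visible vertices (`ch x = none`); it is extended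
to the components (`ch x = some k`), a function of the coordinates `X`. -/
theorem ext (m : ℕ) : ∃ K : ℝ, 1 ≤ K ∧ ∀ (V : Type) [Finite V] (κ : Type) (ch : V → Option κ)
    (D : κ → Set (V × V)) (X : V → Fin m → ℝ) (Xd : V × V → Fin m → ℝ) (Q : V → V → ℝ) (L : ℝ),
    IsL1 Q → 0 ≤ L → (∀ k, ∀ e ∈ D k, ch e.2 = none) →
    (∀ k, ∀ e ∈ D k, ∀ e' ∈ D k, Q e.2 e'.2 ≤ L * sd (Xd e) (Xd e')) →
    ∃ F : V → V → ℝ, IsL1 F ∧ (∀ x y, ch x = none → ch y = none → F x y = Q x y) ∧
      (∀ k x y, ch x = some k → ch y = some k → F x y ≤ K * L * sd (X x) (X y)) ∧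
      ∀ k x, ch x = some k → ∀ e ∈ D k, F x e.2 ≤ K * L * sd (X x) (Xd e) := by
  classical
  obtain ⟨K, hK, hext⟩ := H958.lipExt m
  have hm : (0 : ℝ) ≤ m := Nat.cast_nonneg m
  refine ⟨K * (m + 1), by nlinarith, ?_⟩
  intro V _ κ ch D X Xd Q L hQ hL hD hlip
  obtain ⟨ι, _, f, hf⟩ := exists_map hQ
  have h1 : ∀ k, ∃ g : (Fin m → ℝ) → PiLp 1 (fun _ : ι => ℝ), (∀ e ∈ D k, g (Xd e) = f e.2) ∧
      ∀ z z', ‖g z - g z'‖ ≤ K * (m * L) * dist z z' := by
    intro k
    by_cases hne : (D k).Nonempty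
    · obtain ⟨e₀, he₀⟩ := hne
      have h2 : ∀ z : Fin m → ℝ, ∃ e ∈ D k, (z ∈ Xd '' D k → Xd e = z) := by
        intro z
        by_cases hz : z ∈ Xd '' D k
        · obtain ⟨e, he, rfl⟩ := hz
          exact ⟨e, he, fun _ => rfl⟩
        · exact ⟨e₀, he₀, fun h => absurd h hz⟩
      choose r hr hr' using h2
      have hfin : (Xd '' D k).Finite := (Set.toFinite (D k)).image _
      obtain ⟨g, hg, hg'⟩ := hext (PiLp 1 (fun _ : ι => ℝ)) (Xd '' D k) hfin
        (fun z => f (r z).2) (m * L) (by positivity) (by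
          intro s hs s' hs'
          rw [hf]
          refine (hlip k _ (hr s) _ (hr s')).trans ?_
          rw [hr' s hs, hr' s' hs']
          calc L * sd s s' ≤ L * (m * dist s s') := mul_le_mul_of_nonneg_left (sd_le_dist _ _) hL
            _ = _ := by ring)
      refine ⟨g, fun e he => ?_, hg'⟩
      rw [hg _ ⟨e, he, rfl⟩]
      have h3 := hlip k _ (hr (Xd e)) _ he
      rw [hr' _ ⟨e, he, rfl⟩, sd_self, mul_zero, ← hf] at h3
      exact sub_eq_zero.1 (norm_eq_zero.1 (le_antisymm h3 (norm_nonneg _)))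
    · rw [Set.not_nonempty_iff_eq_empty] at hne
      refine ⟨fun _ => 0, fun e he => ?_, fun z z' => ?_⟩
      · rw [hne] at he; exact he.elim
      · simp only [sub_self, norm_zero]
        have := dist_nonneg (x := z) (y := z')
        positivity
  choose g hg hg' using h1
  have hbd : ∀ z z' : Fin m → ℝ, K * (m * L) * dist z z' ≤ K * (m + 1) * L * sd z z' := by
    intro z z'
    have h2 := dist_le_sd z z'
    have h3 : 0 ≤ K * (m * L) := by positivity
    have h4 : 0 ≤ K * L * sd z z' := mul_nonneg (by positivity) (sd_nonneg z z')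
    nlinarith [mul_le_mul_of_nonneg_left h2 h3]
  set F : V → PiLp 1 (fun _ : ι => ℝ) := fun x => (ch x).elim (f x) fun k => g k (X x) with hF
  refine ⟨fun x y => ‖F x - F y‖, isL1_norm F, ?_, ?_, ?_⟩
  · intro x y hx hy
    simp only [hF, hx, hy, Option.elim]
    exact hf x y
  · intro k x y hx hy
    simp only [hF, hx, hy, Option.elim]
    exact (hg' k _ _).trans (hbd _ _)
  · intro k x hx e he
    simp only [hF, hx, hD k e he, Option.elim]
    rw [← hg k e he]
    exact (hg' k _ _).trans (hbd _ _)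

/-- `ext` for any finite set of coordinates -/
theorem extI (I : Type) [Fintype I] : ∃ K : ℝ, 1 ≤ K ∧ ∀ (V : Type) [Finite V] (κ : Type)
    (ch : V → Option κ) (D : κ → Set (V × V)) (X : V → I → ℝ) (Xd : V × V → I → ℝ)
    (Q : V → V → ℝ) (L : ℝ),
    IsL1 Q → 0 ≤ L → (∀ k, ∀ e ∈ D k, ch e.2 = none) →
    (∀ k, ∀ e ∈ D k, ∀ e' ∈ D k, Q e.2 e'.2 ≤ L * sd (Xd e) (Xd e')) →
    ∃ F : V → V → ℝ, IsL1 F ∧ (∀ x y, ch x = none → ch y = none → F x y = Q x y) ∧
      (∀ k x y, ch x = some k → ch y = some k → F x y ≤ K * L * sd (X x) (X y)) ∧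
      ∀ k x, ch x = some k → ∀ e ∈ D k, F x e.2 ≤ K * L * sd (X x) (Xd e) := by
  obtain ⟨K, hK, hext⟩ := ext (Fintype.card I)
  refine ⟨K, hK, ?_⟩
  intro V _ κ ch D X Xd Q L hQ hL hD hlip
  have hsd : ∀ z z' : I → ℝ, sd (fun i => z ((Fintype.equivFin I).symm i))
      (fun i => z' ((Fintype.equivFin I).symm i)) = sd z z' := fun z z' =>
    Equiv.sum_comp (Fintype.equivFin I).symm fun i => |z i - z' i|
  obtain ⟨F, h1, h2, h3, h4⟩ := hext V κ ch D
    (fun x i => X x ((Fintype.equivFin I).symm i)) (fun x i => Xd x ((Fintype.equivFin I).symm i))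
    Q L hQ hL hD (fun k e he e' he' => by rw [hsd]; exact hlip k e he e' he')
  refine ⟨F, h1, h2, fun k x y hx hy => ?_, fun k x hx e he => ?_⟩
  · have := h3 k x y hx hy
    rwa [hsd] at this
  · have := h4 k x hx e he
    rwa [hsd] at this

/-- **The quotient maps of the components** (`Θ'`): `τ x` is the distance of the coordinates of `x`
to those of the darts of its component, `τ = 0` on visible vertices. -/
theorem theta {V : Type} [Finite V] {κ : Type} [Finite κ] {I : Type} [Fintype I]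
    (ch : V → Option κ) (Z : V → I → ℝ) (τ : V → ℝ) (hτ : ∀ x, 0 ≤ τ x) (h0 : ∀ x, ch x = none → τ x = 0)
    (hl : ∀ k x y, ch x = some k → ch y = some k → |τ x - τ y| ≤ sd (Z x) (Z y)) :
    ∃ T : V → V → ℝ, IsL1 T ∧ (∀ x y, T x y ≤ 9 * (τ x + τ y)) ∧
      (∀ k x y, ch x = some k → ch y = some k → T x y ≤ 18 * sd (Z x) (Z y)) ∧
      (∀ k x y, ch x = some k → ch y = some k →
        1 / 64 * min (sd (Z x) (Z y)) (τ x + τ y) ≤ T x y) ∧
      ∀ x y, ch x ≠ ch y → 1 / 64 * (τ x + τ y) ≤ T x y := by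
  classical
  have := Fintype.ofFinite κ
  set ρ : κ → V → ℝ := fun k x => if ch x = some k then τ x else 0 with hρ
  have hρ0 : ∀ k x, 0 ≤ ρ k x := by
    intro k x
    simp only [hρ]
    split_ifs
    · exact hτ x
    · exact le_rfl
  have hsum : ∀ x, ∑ k, ρ k x = τ x := by
    intro x
    cases hx : ch x with
    | none =>
      rw [h0 x hx]
      exact Finset.sum_eq_zero fun k _ => by simp [hρ, hx]
    | some k =>
      rw [Finset.sum_eq_single k]
      · simp [hρ, hx]
      · intro j _ hj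
        simp only [hρ, hx, Option.some.injEq]
        rw [if_neg (Ne.symm hj)]
      · intro h; exact absurd (Finset.mem_univ k) h
  choose T hT h1 h2 h3 using fun k => half (isL1_sd Z) (ρ k) (hρ0 k)
  have hnn : ∀ k x y, 0 ≤ T k x y := fun k x y => (hT k).nonneg x y
  have hone : ∀ k x y, ch x = some k → ch y = some k → ∑ j, T j x y = T k x y := by
    intro k x y hx hy
    rw [Finset.sum_eq_single k]
    · intro j _ hj
      have h4 := h2 j x y
      have hx' : ρ j x = 0 := by
        simp only [hρ, hx, Option.some.injEq]; rw [if_neg (Ne.symm hj)]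
      have hy' : ρ j y = 0 := by
        simp only [hρ, hy, Option.some.injEq]; rw [if_neg (Ne.symm hj)]
      rw [hx', hy'] at h4
      exact le_antisymm (by linarith) (hnn j x y)
    · intro h; exact absurd (Finset.mem_univ k) h
  refine ⟨fun x y => ∑ k, T k x y, IsL1.sum Finset.univ T fun k _ => hT k, ?_, ?_, ?_, ?_⟩
  · intro x y
    calc ∑ k, T k x y ≤ ∑ k, 9 * (ρ k x + ρ k y) := Finset.sum_le_sum fun k _ => h2 k x y
      _ = 9 * (τ x + τ y) := by
        rw [← Finset.mul_sum, Finset.sum_add_distrib, hsum, hsum]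
  · intro k x y hx hy
    show ∑ j, T j x y ≤ _
    rw [hone k x y hx hy]
    have h4 := h1 k x y
    have h5 := hl k x y hx hy
    simp only [hρ, hx, hy, if_true] at h4
    linarith
  · intro k x y hx hy
    show _ ≤ ∑ j, T j x y
    rw [hone k x y hx hy]
    have h4 := h3 k x y
    simp only [hρ, hx, hy, if_true] at h4
    refine le_trans (mul_le_mul_of_nonneg_left ?_ (by norm_num)) h4
    exact min_le_min (by linarith [abs_nonneg (τ x - τ y)]) le_rfl
  · intro x y hxy
    have h4 : ∀ k, 1 / 64 * (ρ k x + ρ k y) ≤ T k x y := by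
      intro k
      refine le_trans (mul_le_mul_of_nonneg_left (le_min ?_ le_rfl) (by norm_num)) (h3 k x y)
      have h5 := sd_nonneg (Z x) (Z y)
      have h6 : ρ k x = 0 ∨ ρ k y = 0 := by
        by_contra hc
        push Not at hc
        obtain ⟨hx, hy⟩ := hc
        apply hxy
        have hx' : ch x = some k := by
          by_contra h; exact hx (by simp only [hρ]; rw [if_neg h])
        have hy' : ch y = some k := by
          by_contra h; exact hy (by simp only [hρ]; rw [if_neg h])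
        rw [hx', hy']
      rcases h6 with h | h
      · rw [h, zero_sub, abs_neg, abs_of_nonneg (hρ0 k y)]; linarith
      · rw [h, sub_zero, abs_of_nonneg (hρ0 k x)]; linarith
    calc 1 / 64 * (τ x + τ y) = ∑ k, 1 / 64 * (ρ k x + ρ k y) := by
          rw [← Finset.mul_sum, Finset.sum_add_distrib, hsum, hsum]
      _ ≤ _ := Finset.sum_le_sum fun k _ => h4 k

end Vale.Agent.P235.LL.H296
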