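import Vale.Agent.P235.H296.Ext

/-! P235, planar `O(log log n)`: the maps `Φ` and `Θ'` of one move, as `L₁` semimetrics. -/

namespace Vale.Agent.P235.LL.H296

open Finset Vale.Agent.P235

/-- the distance of the coordinates of `x` to those of the darts of its component; `0` on visible
vertices -/
noncomputable def tau {V γ I : Type} [Fintype I] (W : Set V) (comp : V → γ) (Dt : Set (V × V))
    (Z : V → I → ℝ) (Zd : V × V → I → ℝ) (x : V) : ℝ :=
  open Classical in if x ∈ W then 0 else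
    sInf {r : ℝ | ∃ e ∈ Dt, comp e.1 = comp x ∧ r = sd (Z x) (Zd e)}

section tau

variable {V γ I : Type} [Fintype I] {W : Set V} {comp : V → γ} {Dt : Set (V × V)}
  {Z : V → I → ℝ} {Zd : V × V → I → ℝ}

theorem tau_W {x : V} (hx : x ∈ W) : tau W comp Dt Z Zd x = 0 := by
  unfold tau; rw [if_pos hx]

theorem tau_nonneg (x : V) : 0 ≤ tau W comp Dt Z Zd x := by
  unfold tau
  split_ifs
  · exact le_rfl
  · refine Real.sInf_nonneg ?_
    rintro r ⟨e, _, _, rfl⟩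
    exact sd_nonneg _ _

theorem tau_le {x : V} {e : V × V} (he : e ∈ Dt) (hc : comp e.1 = comp x) :
    tau W comp Dt Z Zd x ≤ sd (Z x) (Zd e) := by
  unfold tau
  split_ifs
  · exact sd_nonneg _ _
  · refine csInf_le ⟨0, ?_⟩ ⟨e, he, hc, rfl⟩
    rintro r ⟨e, _, _, rfl⟩
    exact sd_nonneg _ _

theorem exists_tau [Finite V] {x : V} (hx : x ∉ W) (hne : ∃ e ∈ Dt, comp e.1 = comp x) :
    ∃ e ∈ Dt, comp e.1 = comp x ∧ tau W comp Dt Z Zd x = sd (Z x) (Zd e) := by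
  have hfin : {r : ℝ | ∃ e ∈ Dt, comp e.1 = comp x ∧ r = sd (Z x) (Zd e)}.Finite := by
    refine ((Set.toFinite Dt).image fun e => sd (Z x) (Zd e)).subset ?_
    rintro r ⟨e, he, _, rfl⟩
    exact ⟨e, he, rfl⟩
  have hn : {r : ℝ | ∃ e ∈ Dt, comp e.1 = comp x ∧ r = sd (Z x) (Zd e)}.Nonempty := by
    obtain ⟨e, he, hc⟩ := hne
    exact ⟨_, e, he, hc, rfl⟩
  have h := hn.csInf_mem hfin
  unfold tau
  rw [if_neg hx]
  exact h

theorem tau_lip [Finite V] {x y : V} (hx : x ∉ W) (hy : y ∉ W) (hc : comp x = comp y)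
    (hne : ∃ e ∈ Dt, comp e.1 = comp x) :
    |tau W comp Dt Z Zd x - tau W comp Dt Z Zd y| ≤ sd (Z x) (Z y) := by
  have key : ∀ x y : V, x ∉ W → y ∉ W → comp x = comp y → (∃ e ∈ Dt, comp e.1 = comp x) →
      tau W comp Dt Z Zd x ≤ tau W comp Dt Z Zd y + sd (Z x) (Z y) := by
    intro x y _ hy hc hne
    obtain ⟨e, he, hce, h⟩ := exists_tau (Z := Z) (Zd := Zd) hy
      (hne.imp fun e he => ⟨he.1, he.2.trans hc⟩)
    rw [h]
    have h1 := tau_le (W := W) (Z := Z) (Zd := Zd) he (hce.trans hc.symm)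
    have h2 := sd_tri (Z x) (Z y) (Zd e)
    linarith
  have h1 := key x y hx hy hc hne
  have h2 := key y x hy hx hc.symm (by rw [← hc]; exact hne)
  rw [sd_comm (Z y)] at h2
  rw [abs_le]
  constructor <;> linarith

end tau

/-- **The maps of one move**: `W` = visible vertices after the move, `O ⊆ W` = those visible
before, `comp` = component of an invisible vertex, `Dt` = darts, `X`, `ρ` on `W` (old domain),
`Z`, `Zd` = coordinates of the new domains. -/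
theorem mvI (I : Type) [Fintype I] : ∃ K : ℝ, 1 ≤ K ∧ ∀ (V γ : Type) [Finite V] [Finite γ]
    (J : Type) [Fintype J] (W O : Set V)
    (comp : V → γ) (Dt : Set (V × V)) (X : V → J → ℝ) (ρ : V → ℝ)
    (Z : V → I → ℝ) (Zd : V × V → I → ℝ) (d : V → V → ℝ) (C L : ℝ),
    0 ≤ C → 0 ≤ L → (∀ x, 0 ≤ ρ x) → O ⊆ W → (∀ x ∈ O, ρ x = 0) →
    (∀ e ∈ Dt, e.1 ∉ W ∧ e.2 ∈ W) → (∀ x ∉ W, ∃ e ∈ Dt, comp e.1 = comp x) →
    (∀ a ∈ W, ∀ b ∈ W, min (sd (X a) (X b) + |ρ a - ρ b|) (ρ a + ρ b) ≤ C * d a b) →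
    (∀ e ∈ Dt, ∀ e' ∈ Dt, comp e.1 = comp e'.1 → d e.2 e'.2 ≤ L * sd (Zd e) (Zd e')) →
    ∃ P T : V → V → ℝ, IsL1 P ∧ IsL1 T ∧
      (∀ a ∈ O, ∀ b ∈ O, P a b = 0) ∧ (∀ a ∈ W, ∀ b ∈ W, T a b = 0) ∧
      (∀ a ∈ W, ∀ b ∈ W, P a b ≤ 9 * C * d a b) ∧
      (∀ x ∉ W, ∀ y ∉ W, comp x = comp y → P x y ≤ K * C * L * sd (Z x) (Z y)) ∧
      (∀ x ∉ W, ∀ e ∈ Dt, comp e.1 = comp x → P x e.2 ≤ K * C * L * sd (Z x) (Zd e)) ∧
      (∀ a ∈ W, ∀ b ∈ W,
        1 / 64 * min (sd (X a) (X b) + |ρ a - ρ b|) (ρ a + ρ b) ≤ P a b) ∧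
      (∀ x y, T x y ≤ 9 * (tau W comp Dt Z Zd x + tau W comp Dt Z Zd y)) ∧
      (∀ x ∉ W, ∀ y ∉ W, comp x = comp y → T x y ≤ 18 * sd (Z x) (Z y)) ∧
      (∀ x ∉ W, ∀ e ∈ Dt, comp e.1 = comp x → T x e.2 ≤ 9 * sd (Z x) (Zd e)) ∧
      (∀ x ∉ W, ∀ y ∉ W, comp x = comp y → 1 / 64 *
        min (sd (Z x) (Z y)) (tau W comp Dt Z Zd x + tau W comp Dt Z Zd y) ≤ T x y) ∧
      ∀ x y, (x ∈ W ∨ y ∈ W ∨ comp x ≠ comp y) →
        1 / 64 * (tau W comp Dt Z Zd x + tau W comp Dt Z Zd y) ≤ T x y := by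
  classical
  obtain ⟨K, hK, hext⟩ := extI I
  refine ⟨9 * K, by linarith, ?_⟩
  intro V γ _ _ J _ W O comp Dt X ρ Z Zd d C L hC hL hρ hOW hO hDt hne hup hctrl
  obtain ⟨Q, hQ, hQ1, hQ2, hQ3⟩ := half (isL1_sd X) ρ hρ
  have hQm : ∀ a b, Q a b ≤ 9 * min (sd (X a) (X b) + |ρ a - ρ b|) (ρ a + ρ b) := by
    intro a b
    rw [mul_min_of_nonneg _ _ (by norm_num : (0 : ℝ) ≤ 9)]
    exact le_min (hQ1 a b) (hQ2 a b)
  set ch : V → Option γ := fun x => if x ∈ W then none else some (comp x) with hch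
  have chW : ∀ x ∈ W, ch x = none := fun x hx => by simp only [hch]; rw [if_pos hx]
  have chN : ∀ x ∉ W, ch x = some (comp x) := fun x hx => by simp only [hch]; rw [if_neg hx]
  have chS : ∀ x k, ch x = some k → x ∉ W ∧ comp x = k := by
    intro x k h
    by_cases hx : x ∈ W
    · rw [chW x hx] at h; exact absurd h (by simp)
    · rw [chN x hx] at h; exact ⟨hx, by simpa using h⟩
  have chO : ∀ x, ch x = none → x ∈ W := by
    intro x h
    by_contra hx
    rw [chN x hx] at h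
    exact absurd h (by simp)
  obtain ⟨P, hP, hP1, hP2, hP3⟩ := hext V γ ch (fun k => {e | e ∈ Dt ∧ comp e.1 = k}) Z Zd Q
    (9 * C * L) hQ (by positivity) (fun k e he => chW _ (hDt e he.1).2) (by
      intro k e he e' he'
      have h1 := hQm e.2 e'.2
      have h2 := hup e.2 (hDt e he.1).2 e'.2 (hDt e' he'.1).2
      have h3 := mul_le_mul_of_nonneg_left (hctrl e he.1 e' he'.1 (he.2.trans he'.2.symm)) hC
      linarith)
  obtain ⟨T, hT, hT1, hT2, hT3, hT4⟩ := theta ch Z (tau W comp Dt Z Zd) tau_nonneg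
    (fun x hx => tau_W (chO x hx)) (by
      intro k x y hx hy
      obtain ⟨hx1, hx2⟩ := chS x k hx
      obtain ⟨hy1, hy2⟩ := chS y k hy
      exact tau_lip hx1 hy1 (hx2.trans hy2.symm) (hne x hx1))
  refine ⟨P, T, hP, hT, ?_, ?_, ?_, ?_, ?_, ?_, hT1, ?_, ?_, ?_, ?_⟩
  · intro a ha b hb
    rw [hP1 a b (chW a (hOW ha)) (chW b (hOW hb))]
    have h1 := hQ2 a b
    rw [hO a ha, hO b hb] at h1
    exact le_antisymm (by linarith) (hQ.nonneg a b)
  · intro a ha b hb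
    have h1 := hT1 a b
    rw [tau_W ha, tau_W hb] at h1
    exact le_antisymm (by linarith) (hT.nonneg a b)
  · intro a ha b hb
    rw [hP1 a b (chW a ha) (chW b hb)]
    have h1 := hQm a b
    have h2 := hup a ha b hb
    linarith
  · intro x hx y hy hc
    have h1 := hP2 (comp x) x y (chN x hx) (by rw [chN y hy, hc])
    refine h1.trans (le_of_eq ?_)
    ring
  · intro x hx e he hc
    have h1 := hP3 (comp x) x (chN x hx) e ⟨he, hc⟩
    refine h1.trans (le_of_eq ?_)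
    ring
  · intro a ha b hb
    rw [hP1 a b (chW a ha) (chW b hb)]
    exact hQ3 a b
  · intro x hx y hy hc
    exact hT2 (comp x) x y (chN x hx) (by rw [chN y hy, hc])
  · intro x hx e he hc
    have h1 := hT1 x e.2
    rw [tau_W (hDt e he).2] at h1
    have h2 := tau_le (W := W) (Z := Z) (Zd := Zd) he hc
    linarith
  · intro x hx y hy hc
    exact hT3 (comp x) x y (chN x hx) (by rw [chN y hy, hc])
  · intro x y h
    by_cases hx : x ∈ W
    · by_cases hy : y ∈ W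
      · rw [tau_W hx, tau_W hy]
        have := hT.nonneg x y
        linarith
      · exact hT4 x y (by rw [chW x hx, chN y hy]; simp)
    · by_cases hy : y ∈ W
      · exact hT4 x y (by rw [chW y hy, chN x hx]; simp)
      · refine hT4 x y ?_
        rw [chN x hx, chN y hy]
        intro h1
        rcases h with h | h | h
        · exact hx h
        · exact hy h
        · exact h (by simpa using h1)

end Vale.Agent.P235.LL.H296
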