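import Vale.Agent.P235.LL.Rows
import Vale.Agent.P235.H296.MV
import Vale.Agent.P235.H276.PairCore
import Vale.Agent.P235.Comp.PathSum

/-! P235, planar `O(log log n)`: the maps of one move (`RowMove`). -/

namespace Vale.Agent.P235.LL.H296

open Vale.Agent.P235 Finset SimpleGraph

section basic

variable {V : Type} {G : SimpleGraph V} {ℓ : Sym2 V → ℝ}

theorem dto_nonneg (hℓ : ∀ e ∈ G.edgeSet, 0 < ℓ e) (S : Set V) (x : V) : 0 ≤ dto G ℓ S x :=
  Real.iInf_nonneg fun b => pathDist_nonneg hℓ x b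

theorem dto_le (hℓ : ∀ e ∈ G.edgeSet, 0 < ℓ e) {S : Set V} {b : V} (hb : b ∈ S) (x : V) :
    dto G ℓ S x ≤ pathDist G ℓ x b := by
  refine ciInf_le (f := fun b : S => pathDist G ℓ x b) ⟨0, ?_⟩ ⟨b, hb⟩
  rintro _ ⟨c, rfl⟩
  exact pathDist_nonneg hℓ x c

theorem dto_att [Finite V] {S : Set V} (hS : S.Nonempty) (x : V) :
    ∃ b ∈ S, dto G ℓ S x = pathDist G ℓ x b := by
  have : Nonempty S := hS.to_subtype
  obtain ⟨b, hb⟩ := exists_eq_ciInf_of_finite (f := fun b : S => pathDist G ℓ x b)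
  exact ⟨b, b.2, hb.symm⟩

theorem dto_lip [Finite V] (hc : G.Connected) (hℓ : ∀ e ∈ G.edgeSet, 0 < ℓ e) {S : Set V}
    (hS : S.Nonempty) (x y : V) : dto G ℓ S y ≤ dto G ℓ S x + pathDist G ℓ x y := by
  have hd := pathDist_isMet hc hℓ
  obtain ⟨b, hb, h⟩ := dto_att (G := G) (ℓ := ℓ) hS x
  rw [h]
  have h1 := dto_le hℓ hb y
  have h2 := hd.tri y x b
  rw [hd.symm y x] at h2
  linarith

theorem dto_zero (hc : G.Connected) [Finite V] (hℓ : ∀ e ∈ G.edgeSet, 0 < ℓ e) {S : Set V} {x : V}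
    (hx : x ∈ S) : dto G ℓ S x = 0 := by
  have h := dto_le hℓ hx x
  rw [(pathDist_isMet hc hℓ).self] at h
  exact le_antisymm h (dto_nonneg hℓ S x)

theorem dto_mono [Finite V] (hℓ : ∀ e ∈ G.edgeSet, 0 < ℓ e) {S T : Set V} (hS : S.Nonempty)
    (hST : S ⊆ T) (x : V) : dto G ℓ T x ≤ dto G ℓ S x := by
  obtain ⟨b, hb, h⟩ := dto_att (G := G) (ℓ := ℓ) hS x
  rw [h]
  exact dto_le hℓ (hST hb) x

theorem exit {U : Set V} (hℓ : ∀ e ∈ G.edgeSet, 0 < ℓ e) : ∀ {x b : V} (p : G.Walk x b), x ∈ U →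
    b ∉ U → ∃ (v b' : V) (q : G.Walk x v), (∀ a ∈ q.support, a ∈ U) ∧ b' ∉ U ∧ G.Adj v b' ∧
      (q.edges.map ℓ).sum + ℓ s(v, b') ≤ (p.edges.map ℓ).sum := by
  intro x b p
  induction p with
  | nil => intro h h'; exact absurd h h'
  | @cons x a b h p ih =>
    intro hx hb
    rw [Walk.edges_cons, List.map_cons, List.sum_cons]
    by_cases ha : a ∈ U
    · obtain ⟨v, b', q, h1, h2, h3, h4⟩ := ih ha hb
      refine ⟨v, b', Walk.cons h q, ?_, h2, h3, ?_⟩
      · intro c hc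
        rw [Walk.support_cons, List.mem_cons] at hc
        rcases hc with rfl | hc
        · exact hx
        · exact h1 c hc
      · rw [Walk.edges_cons, List.map_cons, List.sum_cons]
        linarith
    · refine ⟨x, a, Walk.nil, by simpa using hx, ha, h, ?_⟩
      have := walk_nonneg hℓ p
      simp
      linarith

theorem walk_var {U : Set V} {f : V → ℝ}
    (hf : ∀ u ∈ U, ∀ v ∈ U, G.Adj u v → |f u - f v| ≤ ℓ s(u, v)) : ∀ {x y : V} (q : G.Walk x y),
    (∀ a ∈ q.support, a ∈ U) → |f x - f y| ≤ (q.edges.map ℓ).sum := by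
  intro x y q
  induction q with
  | nil => intro _; simp
  | @cons x a y h q ih =>
    intro hs
    rw [Walk.edges_cons, List.map_cons, List.sum_cons]
    have h1 := ih fun c hc => hs c (by rw [Walk.support_cons]; exact List.mem_cons_of_mem _ hc)
    have h2 := hf x (hs x (Walk.start_mem_support _)) a
      (hs a (by rw [Walk.support_cons]; exact List.mem_cons_of_mem _ q.start_mem_support)) h
    have h3 := abs_sub_le (f x) (f a) (f y)
    linarith

theorem geo_in [Finite V] (hc : G.Connected) (hℓ : ∀ e ∈ G.edgeSet, 0 < ℓ e) {U : Set V} {x y : V}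
    (h : pathDist G ℓ x y < dto G ℓ Uᶜ x + dto G ℓ Uᶜ y) :
    ∃ p : G.Walk x y, (p.edges.map ℓ).sum = pathDist G ℓ x y ∧ ∀ a ∈ p.support, a ∈ U := by
  classical
  obtain ⟨p, hp⟩ := exists_geodesic hc hℓ x y
  refine ⟨p, hp, fun a ha => ?_⟩
  by_contra hn
  have h1 : (p.edges.map ℓ).sum =
      ((p.takeUntil a ha).edges.map ℓ).sum + ((p.dropUntil a ha).edges.map ℓ).sum := by
    rw [← sum_edges_append, Walk.take_spec]
  have h2 := pathDist_le hℓ (p.takeUntil a ha)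
  have h3 := pathDist_le hℓ (p.dropUntil a ha)
  have h4 := dto_le (G := G) hℓ (S := Uᶜ) (b := a) hn x
  have h5 := dto_le (G := G) hℓ (S := Uᶜ) (b := a) hn y
  rw [(pathDist_isMet hc hℓ).symm y a] at h5
  linarith

theorem foot [Finite V] (hc : G.Connected) (hℓ : ∀ e ∈ G.edgeSet, 0 < ℓ e) {U : Set V}
    (hU : ∃ b, b ∉ U) {x : V} (hx : x ∈ U) : ∃ v b, v ∈ U ∧ b ∉ U ∧ G.Adj v b ∧
      pathDist G ℓ x b ≤ dto G ℓ Uᶜ x ∧ ∀ (f : V → ℝ) (t : ℝ),
      (∀ u ∈ U, ∀ v ∈ U, G.Adj u v → |f u - f v| ≤ ℓ s(u, v)) → |f v - t| ≤ ℓ s(v, b) →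
      |f x - t| ≤ dto G ℓ Uᶜ x := by
  obtain ⟨b₀, hb₀, h0⟩ := dto_att (G := G) (ℓ := ℓ) (S := Uᶜ) hU x
  obtain ⟨p, hp⟩ := exists_geodesic hc hℓ x b₀
  obtain ⟨v, b, q, h1, h2, h3, h4⟩ := exit hℓ p hx hb₀
  have h5 : (q.edges.map ℓ).sum + ℓ s(v, b) ≤ dto G ℓ Uᶜ x := by rw [h0, ← hp]; exact h4
  refine ⟨v, b, h1 v q.end_mem_support, h2, h3, ?_, fun f t hf ht => ?_⟩
  · have hd := pathDist_isMet hc hℓ
    have h6 := pathDist_le hℓ q
    have h7 := pathDist_adj hℓ h3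
    have h8 := hd.tri x v b
    linarith
  · have h6 := walk_var hf q h1
    have h7 := abs_sub_le (f x) (f v) t
    linarith

theorem compSet_congr {X : Set V} {u v : V} (h : ReachOff G X u v) :
    compSet G X u = compSet G X v := by
  ext w
  exact ⟨fun hw => h.symm.trans hw, fun hw => h.trans hw⟩

end basic

section move

set_option linter.unusedSectionVars false

variable {V : Type} [Finite V] {G : SimpleGraph V} {ℓ : Sym2 V → ℝ} {K : ℝ}

theorem vis_compl {D : Dom V} {k : Fin 3 × Bool} {j : ℕ} {x : V} (hx : x ∉ D.vis k (j + 1)) :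
    x ∈ D.U ∧ 2 ^ (j + 1) * D.s k x < 1 := by
  simp only [Dom.vis, Set.mem_ofPred_eq] at hx
  push Not at hx
  obtain ⟨h1, h2⟩ := hx
  exact ⟨h1, h2 (by omega)⟩

theorem vis_out {D : Dom V} {k : Fin 3 × Bool} {j : ℕ} {x : V} (hx : x ∉ D.U) :
    x ∈ D.vis k j := by
  simp only [Dom.vis, Set.mem_ofPred_eq]
  exact fun h => absurd h hx

theorem ch_spec (S : Sys G ℓ K) {D : Dom V} (hD : S.Good D) {k : Fin 3 × Bool} {j : ℕ} {x : V}
    (hx : x ∉ D.vis k (j + 1)) : S.Good (S.ch D k j x) ∧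
      (S.ch D k j x).U = compSet G (D.vis k (j + 1)) x ∧ Link G D (S.ch D k j x) k (j + 1) := by
  classical
  have h := S.child D hD k j x hx
  unfold Sys.ch Sys.chS
  rw [dif_pos h]
  exact h.choose_spec

theorem ch_congr (S : Sys G ℓ K) {D : Dom V} {k : Fin 3 × Bool} {j : ℕ} {x y : V}
    (h : compSet G (D.vis k (j + 1)) x = compSet G (D.vis k (j + 1)) y) :
    S.ch D k j x = S.ch D k j y := by
  unfold Sys.ch
  rw [h]

/-- coordinates are nonexpansive inside the domain -/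
theorem c_lip (hℓ : ∀ e ∈ G.edgeSet, 0 < ℓ e) {D : Dom V} (hD : IsDom G ℓ D) (i : Fin 3 × Bool) :
    ∀ u ∈ D.U, ∀ v ∈ D.U, G.Adj u v → |D.c i u - D.c i v| ≤ ℓ s(u, v) := by
  intro u hu v hv h
  have h1 := hD.edge i u v hu hv h
  have h2 := hℓ _ (G.mem_edgeSet.mpr h)
  have h3 : min (D.s i u) (D.s i v) ≤ 1 := (min_le_left _ _).trans (hD.s1 i u)
  nlinarith

theorem X_lip (hℓ : ∀ e ∈ G.edgeSet, 0 < ℓ e) {D : Dom V} (hD : IsDom G ℓ D) (i : Fin 3 × Bool)
    {v b : V} (h : D.Dart G v b) : |D.c i v - D.X ℓ i v b| ≤ ℓ s(v, b) := by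
  have h1 := hD.dart i v b h
  have h2 := hℓ _ (G.mem_edgeSet.mpr h.2.2)
  have h3 := hD.s1 i v
  nlinarith

/-- the foot of a point of a domain, in the coordinates -/
theorem foot_dom (hc : G.Connected) (hℓ : ∀ e ∈ G.edgeSet, 0 < ℓ e) {D : Dom V}
    (hD : IsDom G ℓ D) {x : V} (hx : x ∈ D.U) : ∃ v b, D.Dart G v b ∧
      pathDist G ℓ x b ≤ dto G ℓ D.Uᶜ x ∧ (∀ (f : V → ℝ) (t : ℝ),
      (∀ u ∈ D.U, ∀ v ∈ D.U, G.Adj u v → |f u - f v| ≤ ℓ s(u, v)) → |f v - t| ≤ ℓ s(v, b) →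
      |f x - t| ≤ dto G ℓ D.Uᶜ x) ∧
      ∑ i, |D.c i x - D.X ℓ i v b| ≤ 6 * dto G ℓ D.Uᶜ x := by
  obtain ⟨v, b, h1, h2, h3, h4, h5⟩ := foot hc hℓ hD.out hx
  refine ⟨v, b, ⟨h1, h2, h3⟩, h4, h5, ?_⟩
  calc ∑ i, |D.c i x - D.X ℓ i v b| ≤ ∑ _i : Fin 3 × Bool, dto G ℓ D.Uᶜ x :=
        Finset.sum_le_sum fun i _ => h5 (D.c i) _ (c_lip hℓ hD i) (X_lip hℓ hD i ⟨h1, h2, h3⟩)
    _ = 6 * dto G ℓ D.Uᶜ x := by simp

/-- the coordinates of an invisible point: carried coordinate, coordinates of the child -/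
noncomputable def Zc (S : Sys G ℓ K) (D : Dom V) (k : Fin 3 × Bool) (j : ℕ) (x : V) :
    Option (Fin 3 × Bool) → ℝ :=
  fun o => o.elim (2 ^ (j + 1) * D.c k x) fun i => (S.ch D k j x).c i x

/-- the coordinates of a dart -/
noncomputable def Zdc (S : Sys G ℓ K) (D : Dom V) (k : Fin 3 × Bool) (j : ℕ) (e : V × V) :
    Option (Fin 3 × Bool) → ℝ :=
  fun o => o.elim (2 ^ (j + 1) * D.cv k e.2) fun i => (S.ch D k j e.1).X ℓ i e.1 e.2

/-- the darts of the children -/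
def Dtc (S : Sys G ℓ K) (D : Dom V) (k : Fin 3 × Bool) (j : ℕ) : Set (V × V) :=
  {e | e.1 ∉ D.vis k (j + 1) ∧ (S.ch D k j e.1).Dart G e.1 e.2}

variable (hc : G.Connected) (hℓ : ∀ e ∈ G.edgeSet, 0 < ℓ e) (S : Sys G ℓ K) {D : Dom V}
  (hD : S.Good D) (k : Fin 3 × Bool) (j : ℕ)

include hD

theorem mem_Dtc {x v b : V} (hx : x ∉ D.vis k (j + 1)) (h : (S.ch D k j x).Dart G v b) :
    (v, b) ∈ Dtc S D k j ∧
      compSet G (D.vis k (j + 1)) v = compSet G (D.vis k (j + 1)) x := by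
  obtain ⟨hG, hU, hL⟩ := ch_spec S hD hx
  have hv : ReachOff G (D.vis k (j + 1)) x v := by
    have := h.1
    rw [hU] at this
    exact this
  have h1 := compSet_congr hv
  refine ⟨⟨hv.right, ?_⟩, h1.symm⟩
  show (S.ch D k j v).Dart G v b
  rw [← ch_congr S h1]
  exact h

theorem Dtc_vis {e : V × V} (he : e ∈ Dtc S D k j) :
    e.1 ∉ D.vis k (j + 1) ∧ e.2 ∈ D.vis k (j + 1) := by
  obtain ⟨h1, h2⟩ := he
  obtain ⟨hG, hU, hL⟩ := ch_spec S hD h1
  refine ⟨h1, ?_⟩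
  by_contra h3
  apply h2.2.1
  rw [hU]
  exact ReachOff.adj h1 h3 h2.2.2

include hℓ

/-- the carried coordinate of a dart -/
theorem cv_dart {e : V × V} (he : e ∈ Dtc S D k j) :
    |D.c k e.1 - D.cv k e.2| ≤ D.sl k e.1 e.2 * ℓ s(e.1, e.2) ∧
      D.sl k e.1 e.2 ≤ D.s k e.1 := by
  classical
  obtain ⟨h1, h2⟩ := he
  obtain ⟨hG, hU, hL⟩ := ch_spec S hD h1
  have hIs := S.dom D hD
  have hxU := (vis_compl h1).1
  by_cases hb : e.2 ∈ D.U
  · unfold Dom.cv Dom.sl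
    rw [if_pos hb, if_pos hxU, if_pos hb]
    exact ⟨hIs.edge k _ _ hxU hb h2.2.2, min_le_left _ _⟩
  · have hbP : e.2 ∈ D.P k.1 := (hL.nb _ _ h2).resolve_left hb
    have h3 := hIs.dart k e.1 e.2 ⟨hxU, hb, h2.2.2⟩
    unfold Dom.X at h3
    rw [if_pos hbP] at h3
    unfold Dom.cv Dom.sl
    rw [if_neg hb, if_pos hxU, if_neg hb]
    exact ⟨h3, le_rfl⟩

include hc

/-- the foot of an invisible point in its child, in all seven coordinates -/
theorem foot_ch {x : V} (hx : x ∉ D.vis k (j + 1)) : ∃ e ∈ Dtc S D k j,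
    compSet G (D.vis k (j + 1)) e.1 = compSet G (D.vis k (j + 1)) x ∧
    pathDist G ℓ x e.2 ≤ dto G ℓ (S.ch D k j x).Uᶜ x ∧
    sd (Zc S D k j x) (Zdc S D k j e) ≤ 7 * dto G ℓ (S.ch D k j x).Uᶜ x := by
  obtain ⟨hG, hU, hL⟩ := ch_spec S hD hx
  have hxU : x ∈ (S.ch D k j x).U := by rw [hU]; exact ReachOff.refl hx
  obtain ⟨v, b, hdart, h1, h2, h3⟩ := foot_dom hc hℓ (S.dom _ hG) hxU
  obtain ⟨he, hcomp⟩ := mem_Dtc S hD k j hx hdart
  refine ⟨(v, b), he, hcomp, h1, ?_⟩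
  have hch : S.ch D k j v = S.ch D k j x := ch_congr S hcomp
  have h4 : |2 ^ (j + 1) * D.c k x - 2 ^ (j + 1) * D.cv k b| ≤ dto G ℓ (S.ch D k j x).Uᶜ x := by
    refine h2 (fun z => 2 ^ (j + 1) * D.c k z) _ ?_ ?_
    · intro u hu w hw huw
      rw [hU] at hu hw
      have hu' := vis_compl (ReachOff.right hu)
      have hw' := vis_compl (ReachOff.right hw)
      have h5 := (S.dom D hD).edge k u w hu'.1 hw'.1 huw
      have h6 := hℓ _ (G.mem_edgeSet.mpr huw)
      have h7 : (0 : ℝ) < 2 ^ (j + 1) := by positivity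
      rw [← mul_sub, abs_mul, abs_of_pos h7]
      calc 2 ^ (j + 1) * |D.c k u - D.c k w|
          ≤ 2 ^ (j + 1) * (D.s k u * ℓ s(u, w)) := by
            refine mul_le_mul_of_nonneg_left (h5.trans ?_) h7.le
            exact mul_le_mul_of_nonneg_right (min_le_left _ _) h6.le
        _ = (2 ^ (j + 1) * D.s k u) * ℓ s(u, w) := by ring
        _ ≤ 1 * ℓ s(u, w) := mul_le_mul_of_nonneg_right hu'.2.le h6.le
        _ = _ := one_mul _
    · have h5 := cv_dart hℓ S hD k j he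
      have h6 := hℓ _ (G.mem_edgeSet.mpr hdart.2.2)
      have h7 : (0 : ℝ) < 2 ^ (j + 1) := by positivity
      have h8 := (vis_compl he.1).2
      show |2 ^ (j + 1) * D.c k v - 2 ^ (j + 1) * D.cv k b| ≤ _
      rw [← mul_sub, abs_mul, abs_of_pos h7]
      calc 2 ^ (j + 1) * |D.c k v - D.cv k b|
          ≤ 2 ^ (j + 1) * (D.s k v * ℓ s(v, b)) := by
            refine mul_le_mul_of_nonneg_left (h5.1.trans ?_) h7.le
            exact mul_le_mul_of_nonneg_right h5.2 h6.le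
        _ = (2 ^ (j + 1) * D.s k v) * ℓ s(v, b) := by ring
        _ ≤ 1 * ℓ s(v, b) := mul_le_mul_of_nonneg_right h8.le h6.le
        _ = _ := one_mul _
  have h5 : sd (Zc S D k j x) (Zdc S D k j (v, b)) =
      |2 ^ (j + 1) * D.c k x - 2 ^ (j + 1) * D.cv k b| +
        ∑ i, |(S.ch D k j x).c i x - (S.ch D k j x).X ℓ i v b| := by
    unfold sd
    rw [Fintype.sum_option]
    simp only [Zc, Zdc, Option.elim, hch]
  rw [h5]
  linarith

omit hc in
theorem N_le {x : V} (hx : x ∉ D.vis k (j + 1)) {e : V × V} (he : e ∈ Dtc S D k j)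
    (hcomp : compSet G (D.vis k (j + 1)) e.1 = compSet G (D.vis k (j + 1)) x) :
    S.N D k j x ≤ dto G ℓ D.Uᶜ e.2 + sd (Zc S D k j x) (Zdc S D k j e) := by
  classical
  have hch : S.ch D k j e.1 = S.ch D k j x := ch_congr S hcomp
  have hd : (S.ch D k j x).Dart G e.1 e.2 := by rw [← hch]; exact he.2
  unfold Sys.N
  rw [if_neg hx]
  unfold Sys.Nd
  refine (ciInf_le ⟨0, ?_⟩ ⟨e, hd⟩).trans (le_of_eq ?_)
  · rintro _ ⟨e', rfl⟩
    have h1 := dto_nonneg hℓ D.Uᶜ e'.1.2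
    have h2 : 0 ≤ ∑ i, |(S.ch D k j x).X ℓ i e'.1.1 e'.1.2 - (S.ch D k j x).c i x| :=
      Finset.sum_nonneg fun _ _ => abs_nonneg _
    have h3 := abs_nonneg (D.cv k e'.1.2 - D.c k x)
    positivity
  · have h7 : (0 : ℝ) < 2 ^ (j + 1) := by positivity
    unfold sd
    rw [Fintype.sum_option]
    simp only [Zc, Zdc, Option.elim, hch]
    rw [← mul_sub, abs_mul, abs_of_pos h7, abs_sub_comm (D.c k x)]
    simp only [abs_sub_comm ((S.ch D k j x).c _ x)]
    ring

end move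

/-- **MOVE**: the maps `Φ + Θ'` of one move -/
theorem rowMove : RowMove := by
  classical
  obtain ⟨K0, hK0, hmv⟩ := mvI (Option (Fin 3 × Bool))
  refine ⟨14 * K0 + 63, (1 / 64) ^ 2 / (14 * K0 + 1 / 64), 1 / 500, by linarith, by positivity,
    by norm_num, by norm_num, ?_⟩
  intro V _ G ℓ K hc hℓ _ S D hD k j
  have hd := pathDist_isMet hc hℓ
  have hdn : ∀ x y, 0 ≤ pathDist G ℓ x y := fun x y => pathDist_nonneg hℓ x y
  have hIs := S.dom D hD
  have hne : (D.Uᶜ).Nonempty := hIs.out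
  set W : Set V := D.vis k (j + 1) with hW
  set ρ : V → ℝ := dto G ℓ D.Uᶜ with hρdef
  set cm : V → Set V := compSet G W with hcm
  have hρ0 : ∀ x, 0 ≤ ρ x := fun x => dto_nonneg hℓ _ x
  have hρz : ∀ x ∉ D.U, ρ x = 0 := fun x hx => dto_zero hc hℓ hx
  have hρl : ∀ a b, ρ b ≤ ρ a + pathDist G ℓ a b := fun a b => dto_lip hc hℓ hne a b
  have hOW : D.Uᶜ ⊆ W := fun x hx => vis_out hx
  have hDt : ∀ e ∈ Dtc S D k j, e.1 ∉ W ∧ e.2 ∈ W := fun e he => Dtc_vis S hD k j he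
  have hup : ∀ a ∈ W, ∀ b ∈ W,
      min (sd (fun i => D.c i a) (fun i => D.c i b) + |ρ a - ρ b|) (ρ a + ρ b) ≤
        7 * pathDist G ℓ a b := by
    intro a _ b _
    by_cases h : pathDist G ℓ a b < ρ a + ρ b
    · obtain ⟨p, hp, hpU⟩ := geo_in hc hℓ h
      refine (min_le_left _ _).trans ?_
      have h1 : sd (fun i => D.c i a) (fun i => D.c i b) ≤ 6 * pathDist G ℓ a b := by
        calc sd (fun i => D.c i a) (fun i => D.c i b)
            ≤ ∑ _i : Fin 3 × Bool, pathDist G ℓ a b := by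
              refine Finset.sum_le_sum fun i _ => ?_
              rw [← hp]
              exact walk_var (c_lip hℓ hIs i) p hpU
          _ = 6 * pathDist G ℓ a b := by simp
      have h2 : |ρ a - ρ b| ≤ pathDist G ℓ a b := by
        have h3 := hρl a b
        have h4 := hρl b a
        rw [hd.symm b a] at h4
        rw [abs_le]; constructor <;> linarith
      linarith
    · push Not at h
      exact (min_le_right _ _).trans (by linarith [hdn a b])
  have hctrl : ∀ e ∈ Dtc S D k j, ∀ e' ∈ Dtc S D k j, cm e.1 = cm e'.1 →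
      pathDist G ℓ e.2 e'.2 ≤ 2 * sd (Zdc S D k j e) (Zdc S D k j e') := by
    intro e he e' he' hcc
    have hch : S.ch D k j e.1 = S.ch D k j e'.1 := ch_congr S hcc
    obtain ⟨hG, _, _⟩ := ch_spec S hD he'.1
    have h1 := (S.dom _ hG).ctrl e.1 e.2 e'.1 e'.2 (by rw [← hch]; exact he.2) he'.2
    have h2 : ∑ i, |(S.ch D k j e'.1).X ℓ i e.1 e.2 - (S.ch D k j e'.1).X ℓ i e'.1 e'.2| ≤
        sd (Zdc S D k j e) (Zdc S D k j e') := by
      unfold sd
      rw [Fintype.sum_option]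
      simp only [Zdc, Option.elim, hch]
      linarith [abs_nonneg (2 ^ (j + 1) * D.cv k e.2 - 2 ^ (j + 1) * D.cv k e'.2)]
    linarith
  have hfoot : ∀ x ∉ W, ∃ e ∈ Dtc S D k j, cm e.1 = cm x ∧ pathDist G ℓ x e.2 ≤ ρ x ∧
      sd (Zc S D k j x) (Zdc S D k j e) ≤ 7 * ρ x ∧
      pathDist G ℓ x e.2 ≤ dto G ℓ (S.ch D k j x).Uᶜ x ∧
      sd (Zc S D k j x) (Zdc S D k j e) ≤ 7 * dto G ℓ (S.ch D k j x).Uᶜ x ∧
      dto G ℓ (S.ch D k j x).Uᶜ x ≤ ρ x := by
    intro x hx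
    obtain ⟨e, he, h1, h2, h3⟩ := foot_ch hc hℓ S hD k j hx
    obtain ⟨_, hU, _⟩ := ch_spec S hD hx
    have h4 : dto G ℓ (S.ch D k j x).Uᶜ x ≤ ρ x := by
      have hsub : D.Uᶜ ⊆ (S.ch D k j x).Uᶜ := by
        intro y hy hyU
        apply hy
        rw [hU] at hyU
        exact (vis_compl (ReachOff.right hyU)).1
      exact dto_mono hℓ hne hsub x
    exact ⟨e, he, h1, h2.trans h4, by linarith, h2, h3, h4⟩
  obtain ⟨P, T, hP, hT, hPO, hTW, hPW, hPc, hPd, hPl, hTu, hTc, hTd, hTl, hTl'⟩ :=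
    hmv V (Set V) (Fin 3 × Bool) W D.Uᶜ cm (Dtc S D k j) (fun a i => D.c i a) ρ
      (Zc S D k j) (Zdc S D k j) (pathDist G ℓ) 7 2 (by norm_num) (by norm_num) hρ0 hOW
      (fun x hx => hρz x hx) hDt (fun x hx => by
        obtain ⟨e, he, h, _⟩ := hfoot x hx
        exact ⟨e, he, h⟩) hup hctrl
  set τ : V → ℝ := tau W cm (Dtc S D k j) (Zc S D k j) (Zdc S D k j) with hτ
  -- the edges
  have halive : ∀ x y, G.Adj x y → x ∉ W → P x y + T x y ≤ (14 * K0 + 18) *
      ((∑ i, (S.ch D k j x).sl i x y + 2 ^ (j + 1) * D.sl k x y) * ℓ s(x, y)) := by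
    intro x y hxy hx
    obtain ⟨hG, hU, hL⟩ := ch_spec S hD hx
    have hIs' := S.dom _ hG
    have h7 : (0 : ℝ) < 2 ^ (j + 1) := by positivity
    have hxU' : x ∈ (S.ch D k j x).U := by rw [hU]; exact ReachOff.refl hx
    have hxU := (vis_compl hx).1
    have hle := hℓ _ (G.mem_edgeSet.mpr hxy)
    by_cases hy : y ∈ W
    · have hyU' : y ∉ (S.ch D k j x).U := by
        rw [hU]; intro h; exact (ReachOff.right h) hy
      have he : (x, y) ∈ Dtc S D k j := ⟨hx, hxU', hyU', hxy⟩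
      have h1 := hPd x hx (x, y) he rfl
      have h2 := hTd x hx (x, y) he rfl
      have h3 : sd (Zc S D k j x) (Zdc S D k j (x, y)) ≤
          (∑ i, (S.ch D k j x).sl i x y + 2 ^ (j + 1) * D.sl k x y) * ℓ s(x, y) := by
        unfold sd
        rw [Fintype.sum_option, add_mul, add_comm, Finset.sum_mul]
        refine add_le_add (Finset.sum_le_sum fun i _ => ?_) ?_
        · simp only [Zc, Zdc, Option.elim]
          have h4 := hIs'.dart i x y ⟨hxU', hyU', hxy⟩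
          have h5 : (S.ch D k j x).sl i x y = (S.ch D k j x).s i x := by
            unfold Dom.sl; rw [if_pos hxU', if_neg hyU']
          rw [h5]
          exact h4
        · simp only [Zc, Zdc, Option.elim]
          rw [← mul_sub, abs_mul, abs_of_pos h7, mul_assoc]
          exact mul_le_mul_of_nonneg_left (cv_dart hℓ S hD k j he).1 h7.le
      have h4 := sd_nonneg (Zc S D k j x) (Zdc S D k j (x, y))
      have h5 : P x y + T x y ≤ (14 * K0 + 18) * sd (Zc S D k j x) (Zdc S D k j (x, y)) := by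
        have : (x, y).2 = y := rfl
        rw [this] at h1 h2
        nlinarith
      exact h5.trans (mul_le_mul_of_nonneg_left h3 (by linarith))
    · have hcc : cm x = cm y := compSet_congr (ReachOff.adj hx hy hxy)
      have hch : S.ch D k j x = S.ch D k j y := ch_congr S hcc
      have hyU' : y ∈ (S.ch D k j x).U := by rw [hU]; exact ReachOff.adj hx hy hxy
      have hyU := (vis_compl hy).1
      have h1 := hPc x hx y hy hcc
      have h2 := hTc x hx y hy hcc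
      have h3 : sd (Zc S D k j x) (Zc S D k j y) ≤
          (∑ i, (S.ch D k j x).sl i x y + 2 ^ (j + 1) * D.sl k x y) * ℓ s(x, y) := by
        unfold sd
        rw [Fintype.sum_option, add_mul, add_comm, Finset.sum_mul]
        refine add_le_add (Finset.sum_le_sum fun i _ => ?_) ?_
        · simp only [Zc, Option.elim, ← hch]
          have h4 := hIs'.edge i x y hxU' hyU' hxy
          have h5 : (S.ch D k j x).sl i x y =
              min ((S.ch D k j x).s i x) ((S.ch D k j x).s i y) := by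
            unfold Dom.sl; rw [if_pos hxU', if_pos hyU']
          rw [h5]
          exact h4
        · simp only [Zc, Option.elim]
          rw [← mul_sub, abs_mul, abs_of_pos h7, mul_assoc]
          refine mul_le_mul_of_nonneg_left ?_ h7.le
          have h5 : D.sl k x y = min (D.s k x) (D.s k y) := by
            unfold Dom.sl; rw [if_pos hxU, if_pos hyU]
          rw [h5]
          exact hIs.edge k x y hxU hyU hxy
      have h4 := sd_nonneg (Zc S D k j x) (Zc S D k j y)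
      have h5 : P x y + T x y ≤ (14 * K0 + 18) * sd (Zc S D k j x) (Zc S D k j y) := by
        nlinarith
      exact h5.trans (mul_le_mul_of_nonneg_left h3 (by linarith))
  -- the witnesses
  have hwit : ∀ x ∈ D.U, ∃ b ∈ W,
      H276.Wit (pathDist G ℓ) ρ P (14 * K0) (S.N D k j x) (τ x) x b := by
    intro x hx
    by_cases hxW : x ∈ W
    · refine ⟨x, hxW, ?_⟩
      have h1 : S.N D k j x = ρ x := by unfold Sys.N; rw [if_pos hxW]
      have h2 : τ x = 0 := tau_W hxW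
      rw [h1, h2]
      exact H276.Wit.self (hd.self x) hP (hρ0 x)
    · obtain ⟨e0, he0, hc0, h1, h2, h3, h4, h5⟩ := hfoot x hxW
      obtain ⟨e, he, hce, htau⟩ := exists_tau (W := W) (comp := cm) (Dt := Dtc S D k j)
        (Z := Zc S D k j) (Zd := Zdc S D k j) hxW ⟨e0, he0, hc0⟩
      refine ⟨e.2, (hDt e he).2, ?_⟩
      have htau' : τ x = ∑ i, |Zc S D k j x i - Zdc S D k j e i| := htau
      rw [htau']
      refine H276.Wit.invis (δ := V × V) Prod.snd (Zc S D k j x) (Zdc S D k j)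
        {e | e ∈ Dtc S D k j ∧ cm e.1 = cm x} hd.tri hρl ?_ (e0 := e0) (e := e)
        ⟨he0, hc0⟩ ⟨he, hce⟩ h5 h3 h4 ?_ ?_ ?_
      · intro e he e' he'
        exact hctrl e he.1 e' he'.1 (he.2.trans he'.2.symm)
      · have h6 := tau_le (W := W) (Z := Zc S D k j) (Zd := Zdc S D k j) he0 hc0
        rw [htau] at h6
        exact h6
      · exact N_le hℓ S hD k j hxW he hce
      · have h6 := hPd x hxW e he hce
        calc P x e.2 ≤ K0 * 7 * 2 * sd (Zc S D k j x) (Zdc S D k j e) := h6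
          _ = 14 * K0 * sd (Zc S D k j x) (Zdc S D k j e) := by ring
  have hc64 : (0 : ℝ) < 1 / 64 := by norm_num
  refine ⟨fun a b => P a b + T a b, ?_⟩
  refine
    { l1 := hP.add hT
      zero := fun a ha b hb => ?_
      vis := fun a ha b hb => ?_
      alive := fun x y hxy hx => ?_
      out := fun x hx y hy => ?_
      pair := fun x hx y hy hxy => ?_ }
  · show P a b + T a b = 0
    rw [hPO a ha b hb, hTW a (hOW ha) b (hOW hb), add_zero]
  · show P a b + T a b ≤ _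
    rw [hTW a ha b hb, add_zero]
    have h1 := hPW a ha b hb
    have h2 := hdn a b
    nlinarith
  · have h1 := halive x y hxy hx
    show P x y + T x y ≤ _
    obtain ⟨hG, hU, hL⟩ := ch_spec S hD hx
    have hnn : 0 ≤ (∑ i, (S.ch D k j x).sl i x y + 2 ^ (j + 1) * D.sl k x y) * ℓ s(x, y) := by
      by_contra hneg
      push Not at hneg
      have h2 := hP.nonneg x y
      have h3 := hT.nonneg x y
      nlinarith
    rw [mul_assoc]
    refine h1.trans (mul_le_mul_of_nonneg_right (by linarith) hnn)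
  · obtain ⟨bx, hbx, wx⟩ := hwit x hx
    have hyW : y ∈ W := hOW hy
    have hτy : τ y = 0 := tau_W hyW
    have wy := H276.Wit.out (d := pathDist G ℓ) (rho := ρ) (FP := P) (C := 14 * K0) (x := y)
      (hd.self y) hP (hρz y hy)
    have h1 := hTl' x y (Or.inr (Or.inl hyW))
    have h2 := H276.pair_move (FT := T) hc64 (by linarith) hP wx wy (hPl bx hbx y hyW) hρ0
      (sd_nonneg _ _) (Or.inr (Or.inl (hρz y hy))) (by rw [hτy] at h1; exact h1)
    rw [add_zero] at h2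
    exact h2
  · obtain ⟨bx, hbx, wx⟩ := hwit x hx
    obtain ⟨bY, hbY, wy⟩ := hwit y hy
    have ha : 500 * (ρ x + ρ y) ≤ pathDist G ℓ x y := by linarith
    have hX : ∀ a ∈ D.U, ∃ e : V × V, D.Dart G e.1 e.2 ∧ pathDist G ℓ a e.2 ≤ ρ a ∧
        ∑ i, |D.c i a - D.X ℓ i e.1 e.2| ≤ 6 * ρ a := by
      intro a haU
      obtain ⟨v, b, h1, h2, _, h3⟩ := foot_dom hc hℓ hIs haU
      exact ⟨(v, b), h1, h2, h3⟩
    refine H276.pair_move (FT := T) hc64 (by linarith) hP wx wy (hPl bx hbx bY hbY) hρ0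
      (sd_nonneg _ _) ?_ ?_
    · by_cases h1 : bx ∈ D.U
      · by_cases h2 : bY ∈ D.U
        · right; right
          obtain ⟨e, he, he1, he2⟩ := hX bx h1
          obtain ⟨e', he', he1', he2'⟩ := hX bY h2
          refine H276.far_num hd.symm hd.tri wx wy (by linarith [hρ0 x, hρ0 y]) ha ?_
          exact H276.far (d := pathDist G ℓ) 6 (δ := V × V) Prod.snd (fun a i => D.c i a)
            (fun e i => D.X ℓ i e.1 e.2) hd.symm hd.tri (hIs.ctrl _ _ _ _ he he') he1 he1' he2 he2'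
        · exact Or.inr (Or.inl (hρz _ h2))
      · exact Or.inl (hρz _ h1)
    · by_cases h1 : x ∈ W ∨ y ∈ W ∨ cm x ≠ cm y
      · exact hTl' x y h1
      · push Not at h1
        obtain ⟨hxW, hyW, hcc⟩ := h1
        obtain ⟨e, he, hce, he1, he2, _⟩ := hfoot x hxW
        obtain ⟨e', he', hce', he1', he2', _⟩ := hfoot y hyW
        have h2 := hTl x hxW y hyW hcc
        refine H276.theta_num (px := ρ x) (py := ρ y) hc64.le ?_ ha
          (by linarith [hρ0 x, hρ0 y]) wx.t_le wy.t_le h2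
        exact H276.far (d := pathDist G ℓ) 7 (δ := V × V) Prod.snd (Zc S D k j)
          (Zdc S D k j) hd.symm hd.tri
          (hctrl e he e' he' (hce.trans (hcc.trans hce'.symm))) he1 he1' he2 he2'

end Vale.Agent.P235.LL.H296
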